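import Mathlib

/-!
Row 73 (S0098), module M4: Powers–Størmer inequality for matrices in eigenbasis form, rank bound,
slicing. Written by helper465.
-/

set_option autoImplicit false

namespace Crest.Agent.R73.Rank

open Matrix
open scoped MatrixOrder ComplexOrder

variable {m n k : Type*} [Fintype m] [Fintype n] [Fintype k]

/-- squared Frobenius norm -/
noncomputable def fro (M : Matrix m n ℂ) : ℝ := ∑ i, ∑ j, ‖M i j‖ ^ 2

lemma fro_nonneg (M : Matrix m n ℂ) : 0 ≤ fro M :=
  Finset.sum_nonneg fun _ _ => Finset.sum_nonneg fun _ _ => by positivity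

lemma trace_conjTranspose_mul (M : Matrix m n ℂ) : (Mᴴ * M).trace = (fro M : ℂ) := by
  unfold fro
  rw [Matrix.trace, Finset.sum_comm]
  push_cast
  refine Finset.sum_congr rfl fun j _ => ?_
  rw [Matrix.diag_apply, Matrix.mul_apply]
  refine Finset.sum_congr rfl fun i _ => ?_
  rw [Matrix.conjTranspose_apply]
  exact Complex.conj_mul' (M i j)


lemma fro_mul_unitary [DecidableEq n] (M : Matrix m n ℂ) (U : Matrix n n ℂ) (hU : U * Uᴴ = 1) :
    fro (M * U) = fro M := by
  have h : ((M * U)ᴴ * (M * U)).trace = (Mᴴ * M).trace := by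
    rw [Matrix.conjTranspose_mul, Matrix.trace_mul_comm, Matrix.mul_assoc, ← Matrix.mul_assoc U,
      hU, Matrix.one_mul, Matrix.trace_mul_comm]
  rw [trace_conjTranspose_mul, trace_conjTranspose_mul] at h
  exact_mod_cast h

lemma fro_unitary_mul [DecidableEq m] (M : Matrix m n ℂ) (U : Matrix m m ℂ) (hU : Uᴴ * U = 1) :
    fro (U * M) = fro M := by
  have h : ((U * M)ᴴ * (U * M)).trace = (Mᴴ * M).trace := by
    rw [Matrix.conjTranspose_mul, Matrix.mul_assoc, ← Matrix.mul_assoc Uᴴ,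
      hU, Matrix.one_mul]
  rw [trace_conjTranspose_mul, trace_conjTranspose_mul] at h
  exact_mod_cast h


lemma sqrt_fro_add_le (M N : Matrix m n ℂ) :
    Real.sqrt (fro (M + N)) ≤ Real.sqrt (fro M) + Real.sqrt (fro N) := by
  have key : ∀ P : Matrix m n ℂ, Real.sqrt (fro P) =
      ‖(WithLp.toLp 2 (fun ij : m × n => P ij.1 ij.2) : EuclideanSpace ℂ (m × n))‖ := by
    intro P
    rw [EuclideanSpace.norm_eq]
    congr 1
    unfold fro
    rw [Fintype.sum_prod_type]
  rw [key, key, key]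
  have : (WithLp.toLp 2 (fun ij : m × n => (M + N) ij.1 ij.2) : EuclideanSpace ℂ (m × n)) =
      WithLp.toLp 2 (fun ij : m × n => M ij.1 ij.2) +
      WithLp.toLp 2 (fun ij : m × n => N ij.1 ij.2) := by
    ext ij; rfl
  rw [this]
  exact norm_add_le _ _

/-- Cauchy–Schwarz for the diagonal of `Pᴴ Q`. -/
lemma sum_norm_diag_le (P Q : Matrix m n ℂ) :
    ∑ j, ‖(Pᴴ * Q) j j‖ ≤ Real.sqrt (fro P) * Real.sqrt (fro Q) := by
  have h1 : ∑ j, ‖(Pᴴ * Q) j j‖ ≤ ∑ ij : m × n, ‖P ij.1 ij.2‖ * ‖Q ij.1 ij.2‖ := by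
    rw [Fintype.sum_prod_type, Finset.sum_comm]
    refine Finset.sum_le_sum fun j _ => ?_
    rw [Matrix.mul_apply]
    refine (norm_sum_le _ _).trans (Finset.sum_le_sum fun i _ => ?_)
    rw [norm_mul, Matrix.conjTranspose_apply, norm_star]
  refine h1.trans ?_
  refine (Real.sum_mul_le_sqrt_mul_sqrt _ _ _).trans (le_of_eq ?_)
  unfold fro
  rw [Fintype.sum_prod_type, Fintype.sum_prod_type]

/-- Powers–Størmer in eigenbasis form. -/
lemma powers_stormer [DecidableEq n] (A B : Matrix n n ℂ) (hA : A.PosSemidef) (hB : B.PosSemidef) :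
    ∃ U : Matrix n n ℂ, U * Uᴴ = 1 ∧ Uᴴ * U = 1 ∧
      fro (A - B) ≤ ∑ i, ‖(Uᴴ * (A * A - B * B) * U) i i‖ := by
  have hD : (A - B).IsHermitian := hA.isHermitian.sub hB.isHermitian
  set U : Matrix n n ℂ := (hD.eigenvectorUnitary : Matrix n n ℂ) with hUdef
  have hU1 : U * Uᴴ = 1 := by
    have := Unitary.coe_mul_star_self hD.eigenvectorUnitary
    rwa [Unitary.coe_star, Matrix.star_eq_conjTranspose] at this
  have hU2 : Uᴴ * U = 1 := by
    have := Unitary.coe_star_mul_self hD.eigenvectorUnitary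
    rwa [Matrix.star_eq_conjTranspose] at this
  refine ⟨U, hU1, hU2, ?_⟩
  -- diagonal form
  set d : n → ℝ := hD.eigenvalues with hd
  have hspec : A - B = U * diagonal (fun i => (d i : ℂ)) * Uᴴ := by
    have := hD.spectral_theorem
    rw [Unitary.conjStarAlgAut_apply] at this
    exact this
  set A1 := Uᴴ * A * U with hA1
  set B1 := Uᴴ * B * U with hB1
  have hAB : A1 = B1 + diagonal (fun i => (d i : ℂ)) := by
    have : A1 - B1 = diagonal (fun i => (d i : ℂ)) := by
      rw [hA1, hB1, ← Matrix.sub_mul, ← Matrix.mul_sub, hspec]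
      calc Uᴴ * (U * diagonal (fun i => (d i : ℂ)) * Uᴴ) * U
          = (Uᴴ * U) * diagonal (fun i => (d i : ℂ)) * (Uᴴ * U) := by
            simp only [Matrix.mul_assoc]
        _ = _ := by rw [hU2, Matrix.one_mul, Matrix.mul_one]
    rw [← this]; abel
  have hA1p : A1.PosSemidef := hA.conjTranspose_mul_mul_same U
  have hB1p : B1.PosSemidef := hB.conjTranspose_mul_mul_same U
  have hsq : Uᴴ * (A * A - B * B) * U = A1 * A1 - B1 * B1 := by
    have e1 : A1 * A1 = Uᴴ * (A * A) * U := by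
      rw [hA1]
      calc Uᴴ * A * U * (Uᴴ * A * U) = Uᴴ * A * (U * Uᴴ) * (A * U) := by
            simp only [Matrix.mul_assoc]
        _ = _ := by rw [hU1, Matrix.mul_one]; simp only [Matrix.mul_assoc]
    have e2 : B1 * B1 = Uᴴ * (B * B) * U := by
      rw [hB1]
      calc Uᴴ * B * U * (Uᴴ * B * U) = Uᴴ * B * (U * Uᴴ) * (B * U) := by
            simp only [Matrix.mul_assoc]
        _ = _ := by rw [hU1, Matrix.mul_one]; simp only [Matrix.mul_assoc]
    rw [e1, e2, Matrix.mul_sub, Matrix.sub_mul]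
  have hfro : fro (A - B) = ∑ i, d i ^ 2 := by
    rw [hspec, fro_mul_unitary _ _ (by rw [Matrix.conjTranspose_conjTranspose]; exact hU2),
      fro_unitary_mul _ _ hU2]
    unfold fro
    refine Finset.sum_congr rfl fun i _ => ?_
    rw [Finset.sum_eq_single i]
    · simp
    · intro j _ hj
      simp [Matrix.diagonal_apply_ne' _ hj]
    · intro h; exact absurd (Finset.mem_univ i) h
  rw [hfro]
  refine Finset.sum_le_sum fun i _ => ?_
  rw [hsq]
  have hentry : (A1 * A1 - B1 * B1) i i = (d i : ℂ) * (A1 i i + B1 i i) := by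
    have e : A1 * A1 - B1 * B1 = B1 * diagonal (fun i => (d i : ℂ)) +
        diagonal (fun i => (d i : ℂ)) * B1 +
        diagonal (fun i => (d i : ℂ)) * diagonal (fun i => (d i : ℂ)) := by
      rw [hAB]; noncomm_ring
    rw [e]
    have e3 : A1 i i = B1 i i + (d i : ℂ) := by
      rw [hAB]; simp
    rw [e3]
    simp only [Matrix.add_apply, Matrix.mul_diagonal, Matrix.diagonal_mul, Matrix.diagonal_apply_eq]
    ring
  rw [hentry]
  have ha : 0 ≤ A1 i i := hA1p.diag_nonneg
  have hb : 0 ≤ B1 i i := hB1p.diag_nonneg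
  obtain ⟨a, ha0, ha'⟩ : ∃ a : ℝ, 0 ≤ a ∧ A1 i i = (a : ℂ) := by
    refine ⟨(A1 i i).re, (Complex.le_def.1 ha).1, ?_⟩
    apply Complex.ext
    · simp
    · simpa using ((Complex.le_def.1 ha).2).symm
  obtain ⟨b, hb0, hb'⟩ : ∃ b : ℝ, 0 ≤ b ∧ B1 i i = (b : ℂ) := by
    refine ⟨(B1 i i).re, (Complex.le_def.1 hb).1, ?_⟩
    apply Complex.ext
    · simp
    · simpa using ((Complex.le_def.1 hb).2).symm
  have hdab : d i = a - b := by
    have : (A1 i i) = B1 i i + (d i : ℂ) := by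
      rw [hAB]; simp
    rw [ha', hb'] at this
    have h2 : a = b + d i := by exact_mod_cast this
    linarith
  rw [ha', hb', norm_mul, Complex.norm_real, ← Complex.ofReal_add, Complex.norm_real,
    Real.norm_eq_abs, Real.norm_eq_abs, abs_of_nonneg (add_nonneg ha0 hb0), ← sq_abs, sq]
  refine mul_le_mul_of_nonneg_left ?_ (abs_nonneg _)
  rw [hdab, abs_le]
  constructor <;> linarith

/-- Estimate `(B)`: an approximate intertwiner has an almost invariant modulus. -/
lemma fro_modulus_le [DecidableEq n] [DecidableEq m] (σ : Matrix n n ℂ) (hσ1 : σ * σᴴ = 1)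
    (α : Matrix m m ℂ) (T : Matrix m n ℂ) (η : ℝ) (hη0 : 0 ≤ η) (hη1 : η ≤ 1)
    (h1 : fro (α * T - T * σ) ≤ η ^ 2 * fro T)
    (h2 : fro ((αᴴ * α - 1) * T) ≤ η ^ 2 * fro T)
    (R : Matrix n n ℂ) (hR : R.PosSemidef) (hRR : R * R = Tᴴ * T) :
    fro (R - σᴴ * R * σ) ≤ 4 * η * fro T := by
  have hB : (σᴴ * R * σ).PosSemidef := hR.conjTranspose_mul_mul_same σ
  obtain ⟨U, hU1, hU2, hU⟩ := powers_stormer R (σᴴ * R * σ) hR hB
  refine hU.trans ?_
  have hBB : (σᴴ * R * σ) * (σᴴ * R * σ) = σᴴ * (Tᴴ * T) * σ := by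
    rw [← hRR]
    calc σᴴ * R * σ * (σᴴ * R * σ) = σᴴ * R * (σ * σᴴ) * (R * σ) := by
          simp only [Matrix.mul_assoc]
      _ = _ := by rw [hσ1, Matrix.mul_one]; simp only [Matrix.mul_assoc]
  set t := fro T with ht
  have ht0 : 0 ≤ t := fro_nonneg T
  set P := T * U with hP
  set X := α * T * U with hX
  set Z := T * σ * U with hZ
  have hPt : fro P = t := fro_mul_unitary _ _ hU1
  have hZt : fro Z = t := by
    rw [hZ, fro_mul_unitary _ _ hU1, fro_mul_unitary _ _ hσ1]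
  have hXZ : fro (X - Z) ≤ η ^ 2 * t := by
    have : X - Z = (α * T - T * σ) * U := by rw [Matrix.sub_mul]
    rw [this, fro_mul_unitary _ _ hU1]; exact h1
  have hW : fro ((αᴴ * α - 1) * T * U) ≤ η ^ 2 * t := by
    rw [fro_mul_unitary _ _ hU1]; exact h2
  have hdecomp : Uᴴ * (R * R - σᴴ * R * σ * (σᴴ * R * σ)) * U =
      -(Pᴴ * ((αᴴ * α - 1) * T * U)) + (X - Z)ᴴ * X + Zᴴ * (X - Z) := by
    rw [hBB, hRR]
    simp only [hP, hX, hZ, Matrix.conjTranspose_mul, Matrix.conjTranspose_sub]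
    simp only [Matrix.mul_sub, Matrix.sub_mul, Matrix.mul_assoc, Matrix.one_mul]
    abel
  have hsqrtX : Real.sqrt (fro X) ≤ (1 + η) * Real.sqrt t := by
    have : X = Z + (X - Z) := by abel
    rw [this]
    refine (sqrt_fro_add_le _ _).trans ?_
    rw [hZt]
    have h3 : Real.sqrt (fro (X - Z)) ≤ η * Real.sqrt t := by
      refine (Real.sqrt_le_sqrt hXZ).trans ?_
      rw [Real.sqrt_mul (sq_nonneg _), Real.sqrt_sq hη0]
    linarith
  have hs : Real.sqrt t * Real.sqrt t = t := Real.mul_self_sqrt ht0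
  have hsXZ : Real.sqrt (fro (X - Z)) ≤ η * Real.sqrt t := by
    refine (Real.sqrt_le_sqrt hXZ).trans ?_
    rw [Real.sqrt_mul (sq_nonneg _), Real.sqrt_sq hη0]
  have hsW : Real.sqrt (fro ((αᴴ * α - 1) * T * U)) ≤ η * Real.sqrt t := by
    refine (Real.sqrt_le_sqrt hW).trans ?_
    rw [Real.sqrt_mul (sq_nonneg _), Real.sqrt_sq hη0]
  have hst : 0 ≤ Real.sqrt t := Real.sqrt_nonneg _
  obtain ⟨W, hWdef⟩ : ∃ W : Matrix m n ℂ, W = (αᴴ * α - 1) * T * U := ⟨_, rfl⟩
  rw [← hWdef] at hdecomp hsW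
  obtain ⟨E1, hE1⟩ : ∃ E : Matrix n n ℂ, E = Pᴴ * W := ⟨_, rfl⟩
  obtain ⟨E2, hE2⟩ : ∃ E : Matrix n n ℂ, E = (X - Z)ᴴ * X := ⟨_, rfl⟩
  obtain ⟨E3, hE3⟩ : ∃ E : Matrix n n ℂ, E = Zᴴ * (X - Z) := ⟨_, rfl⟩
  rw [hdecomp, ← hE1, ← hE2, ← hE3]
  calc ∑ i, ‖(-E1 + E2 + E3) i i‖
      ≤ ∑ i, (‖E1 i i‖ + ‖E2 i i‖ + ‖E3 i i‖) := by
        refine Finset.sum_le_sum fun i _ => ?_
        rw [Matrix.add_apply, Matrix.add_apply, Matrix.neg_apply]
        refine (norm_add_le _ _).trans (add_le_add ((norm_add_le _ _).trans ?_) le_rfl)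
        rw [norm_neg]
    _ = ∑ i, ‖E1 i i‖ + ∑ i, ‖E2 i i‖ + ∑ i, ‖E3 i i‖ := by
        rw [Finset.sum_add_distrib, Finset.sum_add_distrib]
    _ ≤ Real.sqrt t * (η * Real.sqrt t) + (η * Real.sqrt t) * ((1 + η) * Real.sqrt t) +
          Real.sqrt t * (η * Real.sqrt t) := by
        refine add_le_add (add_le_add ?_ ?_) ?_
        · rw [hE1]
          refine (sum_norm_diag_le _ _).trans ?_
          rw [hPt]
          exact mul_le_mul_of_nonneg_left hsW hst
        · rw [hE2]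
          refine (sum_norm_diag_le _ _).trans ?_
          exact mul_le_mul hsXZ hsqrtX (Real.sqrt_nonneg _) (by positivity)
        · rw [hE3]
          refine (sum_norm_diag_le _ _).trans ?_
          rw [hZt]
          exact mul_le_mul_of_nonneg_left hsXZ hst
    _ = (3 * η + η ^ 2) * (Real.sqrt t * Real.sqrt t) := by ring
    _ = (3 * η + η ^ 2) * t := by rw [hs]
    _ ≤ 4 * η * t := by
        refine mul_le_mul_of_nonneg_right ?_ ht0
        nlinarith

/-- The trace of the modulus of a matrix with few rows. -/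
lemma norm_trace_sq_le [DecidableEq n] [DecidableEq m] (T : Matrix m n ℂ)
    (R : Matrix n n ℂ) (hR : R.PosSemidef) (hRR : R * R = Tᴴ * T) :
    ‖R.trace‖ ^ 2 ≤ Fintype.card m * fro T := by
  classical
  have hH := hR.isHermitian
  have htr : R.trace = ∑ i, (hH.eigenvalues i : ℂ) := hH.trace_eq_sum_eigenvalues
  have hsq : ∑ i, (hH.eigenvalues i) ^ 2 = fro R := by
    have hspec := hH.spectral_theorem
    rw [Unitary.conjStarAlgAut_apply] at hspec
    set U : Matrix n n ℂ := (hH.eigenvectorUnitary : Matrix n n ℂ) with hUdef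
    have hU2 : Uᴴ * U = 1 := by
      have := Unitary.coe_star_mul_self hH.eigenvectorUnitary
      rwa [Matrix.star_eq_conjTranspose] at this
    have hspec' : R = U * diagonal (fun i => (hH.eigenvalues i : ℂ)) * Uᴴ := hspec
    have : fro R = fro (U * diagonal (fun i => (hH.eigenvalues i : ℂ)) * Uᴴ) := by
      rw [← hspec']
    rw [this, fro_mul_unitary _ _ (by rw [Matrix.conjTranspose_conjTranspose]; exact hU2),
      fro_unitary_mul _ _ hU2]
    unfold fro
    refine Finset.sum_congr rfl fun i _ => ?_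
    rw [Finset.sum_eq_single i]
    · simp
    · intro j _ hj
      simp [Matrix.diagonal_apply_ne' _ hj]
    · intro h; exact absurd (Finset.mem_univ i) h
  have hfR : fro R = fro T := by
    have h : (Rᴴ * R).trace = (Tᴴ * T).trace := by rw [hH.eq, hRR]
    rw [trace_conjTranspose_mul, trace_conjTranspose_mul] at h
    exact_mod_cast h
  have hrank : R.rank ≤ Fintype.card m := by
    have h1 : (Rᴴ * R).rank = R.rank := Matrix.rank_conjTranspose_mul_self R
    rw [hH.eq, hRR, Matrix.rank_conjTranspose_mul_self] at h1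
    rw [← h1]
    exact Matrix.rank_le_card_height T
  rw [hH.rank_eq_card_non_zero_eigs] at hrank
  rw [htr, ← Complex.ofReal_sum, Complex.norm_real, Real.norm_eq_abs, sq_abs]
  have hsub : ∑ i, hH.eigenvalues i =
      ∑ i ∈ Finset.univ.filter (fun i => hH.eigenvalues i ≠ 0), hH.eigenvalues i := by
    rw [Finset.sum_filter_ne_zero]
  rw [hsub]
  have hcs := sq_sum_le_card_mul_sum_sq
    (s := Finset.univ.filter (fun i => hH.eigenvalues i ≠ 0)) (f := hH.eigenvalues)
  refine hcs.trans ?_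
  have hcard : ((Finset.univ.filter (fun i => hH.eigenvalues i ≠ 0)).card : ℝ) ≤
      Fintype.card m := by
    rw [Fintype.card_subtype] at hrank
    exact_mod_cast hrank
  refine mul_le_mul hcard ?_ (Finset.sum_nonneg fun _ _ => sq_nonneg _) (Nat.cast_nonneg _)
  rw [← hfR, ← hsq]
  exact Finset.sum_le_sum_of_subset_of_nonneg (Finset.filter_subset _ _)
    fun _ _ _ => sq_nonneg _

lemma fro_sub_scalar [DecidableEq n] [Nonempty n] (X : Matrix n n ℂ) :
    fro (X - (X.trace / (Fintype.card n : ℂ)) • (1 : Matrix n n ℂ)) =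
      fro X - ‖X.trace‖ ^ 2 / Fintype.card n := by
  have hN : (Fintype.card n : ℂ) ≠ 0 := by
    exact_mod_cast Fintype.card_ne_zero
  obtain ⟨c, hc⟩ : ∃ c : ℂ, c = X.trace / (Fintype.card n : ℂ) := ⟨_, rfl⟩
  have htr : X.trace = c * Fintype.card n := by rw [hc]; field_simp
  rw [← hc]
  have h := trace_conjTranspose_mul (X - c • (1 : Matrix n n ℂ))
  have h2 : ((X - c • (1 : Matrix n n ℂ))ᴴ * (X - c • (1 : Matrix n n ℂ))).trace =
      (fro X : ℂ) - c * star (X.trace) - star c * X.trace + star c * c * Fintype.card n := by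
    rw [← trace_conjTranspose_mul X, Matrix.conjTranspose_sub, Matrix.conjTranspose_smul,
      Matrix.conjTranspose_one, Matrix.sub_mul, Matrix.mul_sub, Matrix.mul_sub,
      Matrix.mul_smul, Matrix.smul_mul, Matrix.mul_smul, Matrix.smul_mul, Matrix.mul_one,
      Matrix.one_mul, Matrix.mul_one, Matrix.trace_sub, Matrix.trace_sub, Matrix.trace_sub,
      Matrix.trace_smul, Matrix.trace_smul, Matrix.trace_smul, Matrix.trace_smul,
      Matrix.trace_conjTranspose, Matrix.trace_one]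
    simp only [smul_eq_mul]
    ring
  have h3 : (fro (X - c • (1 : Matrix n n ℂ)) : ℂ) =
      ((fro X - ‖X.trace‖ ^ 2 / Fintype.card n : ℝ) : ℂ) := by
    rw [← h, h2]
    have hstar : star c * c = ((‖c‖ ^ 2 : ℝ) : ℂ) := by
      rw [Complex.ofReal_pow]; exact Complex.conj_mul' c
    have hn : ‖X.trace‖ ^ 2 / (Fintype.card n : ℝ) = ‖c‖ ^ 2 * Fintype.card n := by
      rw [htr, norm_mul, Complex.norm_natCast]
      have : (Fintype.card n : ℝ) ≠ 0 := by exact_mod_cast Fintype.card_ne_zero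
      field_simp
    rw [hn, htr, star_mul', star_natCast]
    push_cast
    have h4 : c * (star c * (Fintype.card n : ℂ)) = (‖c‖ : ℂ) ^ 2 * Fintype.card n := by
      rw [← mul_assoc, mul_comm c, hstar]; push_cast; ring
    rw [h4, ← mul_assoc, hstar]
    push_cast
    ring
  exact_mod_cast h3

/-- (C) matrix form of the contradiction. -/
theorem rank_gap {ι : Type*} [Fintype ι] [DecidableEq n] [DecidableEq m] [Nonempty n]
    (σ : ι → Matrix n n ℂ) (hσ : ∀ s, σ s * (σ s)ᴴ = 1) (κ C : ℝ) (hκ : 0 ≤ κ) (hC : 0 ≤ C)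
    (hgap : ∀ X : Matrix n n ℂ,
      κ * fro (X - (X.trace / (Fintype.card n : ℂ)) • (1 : Matrix n n ℂ)) ≤
        C * ∑ s, fro (X - (σ s)ᴴ * X * σ s))
    (α : ι → Matrix m m ℂ) (T : Matrix m n ℂ) (hT : 0 < fro T)
    (η : ℝ) (hη0 : 0 ≤ η) (hη1 : η ≤ 1)
    (h1 : ∀ s, fro (α s * T - T * σ s) ≤ η ^ 2 * fro T)
    (h2 : ∀ s, fro (((α s)ᴴ * α s - 1) * T) ≤ η ^ 2 * fro T) :
    κ * (1 - Fintype.card m / Fintype.card n) ≤ C * (Fintype.card ι * (4 * η)) := by
  set R : Matrix n n ℂ := CFC.sqrt (Tᴴ * T) with hRdef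
  have hpos : (0 : Matrix n n ℂ) ≤ Tᴴ * T := (Matrix.posSemidef_conjTranspose_mul_self T).nonneg
  have hR : R.PosSemidef := (CFC.sqrt_nonneg (Tᴴ * T)).posSemidef
  have hRR : R * R = Tᴴ * T := CFC.sqrt_mul_sqrt_self (Tᴴ * T) hpos
  have hfR : fro R = fro T := by
    have h : (Rᴴ * R).trace = (Tᴴ * T).trace := by rw [hR.isHermitian.eq, hRR]
    rw [trace_conjTranspose_mul, trace_conjTranspose_mul] at h
    exact_mod_cast h
  have hg := hgap R
  rw [fro_sub_scalar, hfR] at hg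
  have htr := norm_trace_sq_le T R hR hRR
  have hN : (0 : ℝ) < Fintype.card n := by exact_mod_cast Fintype.card_pos
  have hs : ∑ s, fro (R - (σ s)ᴴ * R * σ s) ≤ ∑ _s : ι, 4 * η * fro T :=
    Finset.sum_le_sum fun s _ => fro_modulus_le (σ s) (hσ s) (α s) T η hη0 hη1 (h1 s) (h2 s) R hR hRR
  rw [Finset.sum_const, Finset.card_univ, nsmul_eq_mul] at hs
  have h5 : ‖R.trace‖ ^ 2 / Fintype.card n ≤ Fintype.card m / Fintype.card n * fro T := by
    rw [div_mul_eq_mul_div]
    exact div_le_div_of_nonneg_right htr hN.le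
  have h6 : κ * ((1 - Fintype.card m / Fintype.card n) * fro T) ≤
      C * (Fintype.card ι * (4 * η)) * fro T := by
    calc κ * ((1 - Fintype.card m / Fintype.card n) * fro T)
        ≤ κ * (fro T - ‖R.trace‖ ^ 2 / Fintype.card n) := by
          refine mul_le_mul_of_nonneg_left ?_ hκ
          linarith
      _ ≤ C * ∑ s, fro (R - (σ s)ᴴ * R * σ s) := hg
      _ ≤ C * (Fintype.card ι * (4 * η * fro T)) := mul_le_mul_of_nonneg_left hs hC
      _ = _ := by ring
  have h7 : (κ * (1 - Fintype.card m / Fintype.card n)) * fro T ≤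
      (C * (Fintype.card ι * (4 * η))) * fro T := by
    rw [mul_assoc]; exact h6
  exact le_of_mul_le_mul_right h7 hT

section slicing

variable {H : Type*} [NormedAddCommGroup H] [InnerProductSpace ℂ H]


end slicing

end Crest.Agent.R73.Rank
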